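import Vale.Agent.P235.H263.Elim
import Vale.Agent.P235.H749.Helly

/-!
# P235, line SC, row [SC9]: an elimination order which starts with a given clique (helper198)

For a graph `G` of treewidth at most `k` (tree decomposition with bags of at most `k + 1` vertices)
and a clique `R` of `G`: an elimination order of `G`, with at most `k` earlier neighbours, whose
first vertices are the vertices of `R`.
-/

set_option autoImplicit false

namespace Vale.Agent.P235.SC.H198

open Finset Vale.Agent.P235 Vale.Agent.P235.H263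

section state

variable {V : Type} [DecidableEq V]

/-- `Pre.step` keeps the ranks and the adhesions of the old vertices -/
theorem step_keep {k : ℕ} {bags : Set (Finset V)} {D : Finset V} {rk : V → ℕ} {A : V → Finset V}
    (h : Pre k bags D rk A) {z : V} (hz : z ∉ D) {N b : Finset V} (hb : b ∈ bags) (hN : N ⊆ b)
    (hc : N.card ≤ k) :
    ∃ (bags' : Set (Finset V)) (rk' : V → ℕ) (A' : V → Finset V),
      Pre k bags' (insert z D) rk' A' ∧ bags ⊆ bags' ∧ insert z N ∈ bags' ∧
      ∀ x ∈ D, rk' x = rk x := by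
  refine ⟨_, _, _, h.step hz hb hN hc, Set.subset_insert _ _, Set.mem_insert _ _, ?_⟩
  intro x hx
  exact Function.update_of_ne (fun e : x = z => hz (e ▸ hx)) _ _

theorem many_keep {k : ℕ} {N b : Finset V} (M : Finset V) : ∀ {bags : Set (Finset V)}
    {D : Finset V} {rk : V → ℕ} {A : V → Finset V}, Pre k bags D rk A → b ∈ bags → N ⊆ b →
    Disjoint M D → (N ∪ M).card ≤ k + 1 →
    ∃ (bags' : Set (Finset V)) (rk' : V → ℕ) (A' : V → Finset V), Pre k bags' (D ∪ M) rk' A' ∧
      bags ⊆ bags' ∧ (∃ c ∈ bags', N ∪ M ⊆ c) ∧ ∀ x ∈ D, rk' x = rk x := by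
  induction M using Finset.induction_on with
  | empty =>
    intro bags D rk A h hb hN _ _
    exact ⟨bags, rk, A, by simpa using h, subset_rfl, ⟨b, hb, by simpa using hN⟩,
      fun x _ => rfl⟩
  | insert z M hzM ih =>
    intro bags D rk A h hb hN hd hcard
    have hd' : Disjoint M D := hd.mono_left (subset_insert _ _)
    have hzD : z ∉ D := fun hz => (Finset.disjoint_left.mp hd) (mem_insert_self z M) hz
    have hND : N ⊆ D := hN.trans (h.bag b hb).1
    have hzN : z ∉ N ∪ M := by
      rw [mem_union, not_or]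
      exact ⟨fun hz => hzD (hND hz), hzM⟩
    have e : N ∪ insert z M = insert z (N ∪ M) := by
      rw [union_insert]
    rw [e, card_insert_of_notMem hzN] at hcard
    obtain ⟨bags', rk', A', h', hsub, ⟨c, hc, hNc⟩, hkeep⟩ := ih h hb hN hd' (by omega)
    have hzD' : z ∉ D ∪ M := by
      rw [mem_union, not_or]
      exact ⟨hzD, hzM⟩
    obtain ⟨bags'', rk'', A'', h3, h4, h5, h6⟩ := step_keep h' hzD' hc hNc (by omega)
    refine ⟨bags'', rk'', A'', ?_, hsub.trans h4, ⟨insert z (N ∪ M), h5, ?_⟩, ?_⟩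
    · rw [union_insert]; exact h3
    · rw [e]
    · intro x hx
      rw [h6 x (mem_union_left _ hx), hkeep x hx]

end state

section tree

variable {V : Type} [DecidableEq V] {ι : Type}

/-- one step along a tree edge -/
theorem grow_step_keep [DecidableEq ι] {k : ℕ} {H : SimpleGraph ι} {B : ι → Finset V}
    (hH : H.IsTree)
    (hI : ∀ v, (H.induce {t | v ∈ B t}).Preconnected) (hB : ∀ t, (B t).card ≤ k + 1)
    {r : ι} {S : Finset ι}
    (hS : ∀ a ∈ S, ∃ p : H.Walk r a, ∀ x ∈ p.support, x ∈ S) {s t : ι} (hs : s ∈ S) (ht : t ∉ S)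
    (hst : H.Adj s t) {bags : Set (Finset V)} {rk : V → ℕ} {A : V → Finset V}
    (h : Pre k bags (S.biUnion B) rk A) (hb : ∀ a ∈ S, ∃ c ∈ bags, B a ⊆ c) :
    ∃ (bags' : Set (Finset V)) (rk' : V → ℕ) (A' : V → Finset V),
      Pre k bags' ((insert t S).biUnion B) rk' A' ∧ (∀ a ∈ insert t S, ∃ c ∈ bags', B a ⊆ c) ∧
      ∀ x ∈ S.biUnion B, rk' x = rk x := by
  obtain ⟨c, hc, hcB⟩ := hb s hs
  have hBt : (B s ∩ B t) ∪ (B t \ B s) = B t := by
    ext x
    simp only [Finset.mem_union, Finset.mem_inter, Finset.mem_sdiff]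
    tauto
  have hd : Disjoint (B t \ B s) (S.biUnion B) := by
    rw [Finset.disjoint_left]
    intro x hx hx'
    obtain ⟨a, ha, hxa⟩ := mem_biUnion.mp hx'
    exact (mem_sdiff.mp hx).2 (both hH hI hS hs ht hst (mem_sdiff.mp hx).1 ha hxa)
  obtain ⟨bags', rk', A', h1, h2, ⟨c', hc', h3⟩, h4⟩ := many_keep (B t \ B s) h hc
    ((inter_subset_left : B s ∩ B t ⊆ B s).trans hcB) hd (by rw [hBt]; exact hB t)
  refine ⟨bags', rk', A', ?_, ?_, h4⟩
  · have e : (insert t S).biUnion B = S.biUnion B ∪ (B t \ B s) := by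
      ext x
      rw [biUnion_insert, mem_union, mem_union, mem_sdiff]
      constructor
      · rintro (hx | hx)
        · by_cases hxs : x ∈ B s
          · exact Or.inl (mem_biUnion.mpr ⟨s, hs, hxs⟩)
          · exact Or.inr ⟨hx, hxs⟩
        · exact Or.inl hx
      · rintro (hx | hx)
        · exact Or.inr hx
        · exact Or.inl hx.1
    rw [e]
    exact h1
  · intro a ha
    rcases mem_insert.mp ha with rfl | ha
    · exact ⟨c', hc', by rw [hBt] at h3; exact h3⟩
    · obtain ⟨d, hd1, hd2⟩ := hb a ha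
      exact ⟨d, h2 hd1, hd2⟩

theorem grow_all_root [DecidableEq ι] [Fintype ι] {k : ℕ} {H : SimpleGraph ι} {B : ι → Finset V}
    (hH : H.IsTree) (hI : ∀ v, (H.induce {t | v ∈ B t}).Preconnected)
    (hB : ∀ t, (B t).card ≤ k + 1) (r : ι) {R : Finset V} (hR : R ⊆ B r) :
    ∀ m : ℕ, m + 1 ≤ Fintype.card ι → ∃ (S : Finset ι), S.card = m + 1 ∧
      (∀ a ∈ S, ∃ p : H.Walk r a, ∀ x ∈ p.support, x ∈ S) ∧
      ∃ (bags : Set (Finset V)) (rk : V → ℕ) (A : V → Finset V),
        Pre k bags (S.biUnion B) rk A ∧ (∀ a ∈ S, ∃ c ∈ bags, B a ⊆ c) ∧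
        ∀ x ∈ R, rk x < R.card := by
  intro m
  induction m with
  | zero =>
    intro _
    have h0 : Pre k {(∅ : Finset V)} ∅ (fun _ => 0) (fun _ => ∅) := by
      constructor
      · intro x hx; simp at hx
      · intro x hx; simp at hx
      · intro x hx; simp at hx
      · intro x hx; simp at hx
      · intro x hx; simp at hx
      · intro b hb
        rw [Set.mem_singleton_iff] at hb
        subst hb
        exact ⟨subset_rfl, fun x hx => by simp at hx⟩
      · intro x hx; simp at hx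
    obtain ⟨bags1, rk1, A1, h1, h2, ⟨c1, hc1, h3⟩, -⟩ := many_keep (N := ∅) (b := ∅) R h0
      (Set.mem_singleton _) subset_rfl (by simp)
      (by rw [empty_union]; exact (card_le_card hR).trans (hB r))
    rw [empty_union] at h1 h3
    have hun : R ∪ (B r \ R) = B r := union_sdiff_of_subset hR
    obtain ⟨bags', rk', A', h1', h2', ⟨c', hc', h3'⟩, h4'⟩ := many_keep (N := R) (b := c1)
      (B r \ R) h1 hc1 h3 sdiff_disjoint (by rw [hun]; exact hB r)
    rw [hun] at h1' h3'
    refine ⟨{r}, by simp, ?_, bags', rk', A', by simpa using h1', ?_, ?_⟩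
    · intro a ha
      rw [mem_singleton] at ha
      subst ha
      exact ⟨SimpleGraph.Walk.nil, by simp⟩
    · intro a ha
      rw [mem_singleton] at ha
      subst ha
      exact ⟨c', hc', h3'⟩
    · intro x hx
      rw [h4' x hx]
      exact h1.lt x hx
  | succ m ih =>
    intro hm
    obtain ⟨S, hcard, hS, bags, rk, A, h, hb, hlow⟩ := ih (by omega)
    have hne : ∃ t, t ∉ S := by
      by_contra hcon
      have hcon : ∀ t, t ∈ S := fun t => by
        by_contra h'
        exact hcon ⟨t, h'⟩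
      have : S = univ := eq_univ_iff_forall.mpr hcon
      rw [this, card_univ] at hcard
      omega
    obtain ⟨t0, ht0⟩ := hne
    have hrS : r ∈ S := by
      have : S.Nonempty := by
        rw [← card_pos]; omega
      obtain ⟨a, ha⟩ := this
      obtain ⟨p, hp⟩ := hS a ha
      exact hp r p.start_mem_support
    obtain ⟨w⟩ := hH.connected r t0
    obtain ⟨dd, _, hd1, hd2⟩ := w.exists_boundary_dart {x | x ∈ S} hrS ht0
    obtain ⟨bags', rk', A', h', hb', hkeep⟩ := grow_step_keep hH hI hB hS hd1 hd2 dd.adj h hb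
    refine ⟨insert dd.snd S, ?_, ?_, bags', rk', A', h', hb', ?_⟩
    · rw [card_insert_of_notMem hd2, hcard]
    · intro a ha
      rcases mem_insert.mp ha with rfl | ha
      · obtain ⟨p, hp⟩ := hS dd.fst hd1
        refine ⟨p.concat dd.adj, ?_⟩
        intro x hx
        rw [SimpleGraph.Walk.support_concat, List.mem_append, List.mem_singleton] at hx
        rcases hx with hx | rfl
        · exact mem_insert_of_mem (hp x hx)
        · exact mem_insert_self _ _
      · obtain ⟨p, hp⟩ := hS a ha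
        exact ⟨p, fun x hx => mem_insert_of_mem (hp x hx)⟩
    · intro x hx
      rw [hkeep x (mem_biUnion.mpr ⟨r, hrS, hR hx⟩)]
      exact hlow x hx

omit [DecidableEq V] in
/-- a clique lies in a bag -/
theorem clique_bag [Finite V] [Finite ι] {G : SimpleGraph V} {H : SimpleGraph ι}
    {B : ι → Finset V} (hH : H.IsTree) (hV : ∀ v, ∃ t, v ∈ B t)
    (hE : ∀ u v, G.Adj u v → ∃ t, u ∈ B t ∧ v ∈ B t)
    (hI : ∀ v, (H.induce {t | v ∈ B t}).Preconnected) {R : Finset V}
    (hR : ∀ x ∈ R, ∀ y ∈ R, x ≠ y → G.Adj x y) : ∃ t, R ⊆ B t := by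
  obtain ⟨t, ht⟩ := H749.helly hH (fun v => {t | v ∈ B t}) (R : Set V) hI hV (by
    intro u hu v hv huv
    obtain ⟨t, h1, h2⟩ := hE u v (hR u hu v hv huv)
    exact ⟨t, h1, h2⟩)
  exact ⟨t, fun v hv => ht v hv⟩

/-- **Elimination order starting with a clique**, in rank form. -/
theorem exists_rank_root [Fintype V] {G : SimpleGraph V} {k : ℕ} (hG : TreewidthLE G k)
    [Nonempty V] (R : Finset V) (hR : ∀ x ∈ R, ∀ y ∈ R, x ≠ y → G.Adj x y) :
    ∃ (rk : V → ℕ) (A : V → Finset V),
      (∀ x, rk x < Fintype.card V) ∧ Function.Injective rk ∧ (∀ x, ∀ y ∈ A x, rk y < rk x) ∧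
      (∀ x, (A x).card ≤ k) ∧ (∀ x, ∀ a ∈ A x, ∀ b ∈ A x, rk a < rk b → a ∈ A b) ∧
      (∀ x y, G.Adj x y → rk x < rk y → x ∈ A y) ∧
      ∀ x, rk x < R.card ↔ x ∈ R := by
  classical
  obtain ⟨ι, hfin, H, B, hH, hV, hE, hI, hB⟩ := hG
  have := Fintype.ofFinite ι
  obtain ⟨r, hr⟩ := clique_bag hH hV hE hI hR
  have hpos : 1 ≤ Fintype.card ι := Fintype.card_pos_iff.mpr ⟨r⟩
  obtain ⟨S, hcard, hS, bags, rk, A, h, hb, hlow⟩ :=
    grow_all_root hH hI hB r hr (Fintype.card ι - 1) (by omega)
  have hSu : S = univ := by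
    rw [← Finset.card_eq_iff_eq_univ]
    omega
  subst hSu
  have hDu : (univ : Finset ι).biUnion B = univ := by
    rw [eq_univ_iff_forall]
    intro v
    obtain ⟨t, ht⟩ := hV v
    exact mem_biUnion.mpr ⟨t, mem_univ t, ht⟩
  rw [hDu] at h
  have hinj : Function.Injective rk := fun x y hxy => h.inj x (mem_univ x) y (mem_univ y) hxy
  refine ⟨rk, A, fun x => by simpa using h.lt x (mem_univ x), hinj,
    fun x => h.low x (mem_univ x), fun x => h.card x (mem_univ x), ?_, ?_, ?_⟩
  · intro x a ha b hb' hab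
    obtain ⟨c, hc, hc2⟩ := h.cov x (mem_univ x)
    exact (h.bag c hc).2 a (hc2 (mem_insert_of_mem ha)) b (hc2 (mem_insert_of_mem hb')) hab
  · intro x y hxy hlt
    obtain ⟨t, h1, h2⟩ := hE x y hxy
    obtain ⟨c, hc, hc2⟩ := hb t (mem_univ t)
    exact (h.bag c hc).2 x (hc2 h1) y (hc2 h2) hlt
  · intro x
    refine ⟨fun hx => ?_, hlow x⟩
    have himg : R.image rk = Finset.range R.card := by
      refine Finset.eq_of_subset_of_card_le ?_ ?_
      · intro j hj
        obtain ⟨y, hy, rfl⟩ := mem_image.mp hj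
        exact mem_range.mpr (hlow y hy)
      · rw [card_range, card_image_of_injective _ hinj]
    have h1 : rk x ∈ R.image rk := by
      rw [himg]
      exact mem_range.mpr hx
    obtain ⟨y, hy, hxy⟩ := mem_image.mp h1
    rw [← hinj hxy]
    exact hy

end tree

end Vale.Agent.P235.SC.H198
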