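import Vale.Agent.P235.SC.H198.Elim

/-!
# P235, line SC, row [SC9]: the elimination sequence of a piece of treewidth at most `k`, from its
root clique (helper198)
-/

set_option autoImplicit false

namespace Vale.Agent.P235.SC.H198

open Finset Vale.Agent.P235 Vale.Agent.P235.H263

/-- **[SC9]** the piece `G[B]` has treewidth at most `k` and `R ⊆ B` is a clique: the vertices of
`B` outside `R` in an order `v 0, …, v (m - 1)`, with adhesions `S j` of at most `k` vertices
before `v j`, which contain all earlier neighbours of `v j` and lie in `R` or in an earlier small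
bag `insert (v i) (S i)`. -/
theorem exists_seq {V : Type} [Finite V] [Nonempty V] {G : SimpleGraph V} {k : ℕ} {B R : Set V}
    (hRB : R ⊆ B) (hR : ∀ x ∈ R, ∀ y ∈ R, x ≠ y → G.Adj x y)
    (hG : TreewidthLE (G.induce B) k) :
    ∃ (m : ℕ) (v : ℕ → V) (S : ℕ → Set V),
      (∀ i < m, ∀ j < m, v i = v j → i = j) ∧
      (∀ x, (x ∈ B ∧ x ∉ R) ↔ ∃ j < m, v j = x) ∧
      (∀ j < m, ∀ x ∈ S j, x ∈ R ∨ ∃ i < j, v i = x) ∧
      (∀ j < m, (S j).ncard ≤ k) ∧
      (∀ j < m, ∀ x, (x ∈ R ∨ ∃ i < j, v i = x) → G.Adj (v j) x → x ∈ S j) ∧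
      (∀ j < m, S j ⊆ R ∨ ∃ i < j, S j ⊆ insert (v i) (S i)) := by
  classical
  rcases isEmpty_or_nonempty B with hB | hB
  · refine ⟨0, fun _ => Classical.arbitrary V, fun _ => ∅, ?_, ?_, ?_, ?_, ?_, ?_⟩
    · intro i hi; omega
    · intro x
      constructor
      · rintro ⟨hx, -⟩
        exact (hB.false ⟨x, hx⟩).elim
      · rintro ⟨j, hj, -⟩; omega
    all_goals intro j hj; omega
  have := Fintype.ofFinite B
  let R' : Finset B := univ.filter fun x => (x : V) ∈ R
  have hmR' : ∀ x : B, x ∈ R' ↔ (x : V) ∈ R := fun x => by simp [R']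
  obtain ⟨rk, A, h1, h2, h3, h4, h5, h6, h7⟩ := exists_rank_root hG R' (by
    intro x hx y hy hxy
    exact hR x ((hmR' x).mp hx) y ((hmR' y).mp hy) (fun e => hxy (Subtype.ext e)))
  set N := Fintype.card B with hN
  set r := R'.card with hr
  have hsurj : ∀ j < N, ∃ x, rk x = j := by
    intro j hj
    have hb : Function.Bijective (fun x : B => (⟨rk x, h1 x⟩ : Fin N)) := by
      rw [Fintype.bijective_iff_injective_and_card]
      refine ⟨fun x y hxy => h2 (by simpa using hxy), by simp [hN]⟩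
    obtain ⟨x, hx⟩ := hb.2 ⟨j, hj⟩
    exact ⟨x, by simpa using hx⟩
  let inv : ℕ → B := Function.invFun rk
  have hinv : ∀ x, inv (rk x) = x := Function.leftInverse_invFun h2
  have hrk : ∀ j < N, rk (inv j) = j := fun j hj => Function.invFun_eq (hsurj j hj)
  have hrN : r ≤ N := by
    rw [hr, hN]; exact card_le_univ _
  have hlow : ∀ x : B, (x : V) ∈ R ↔ rk x < r := fun x => by rw [h7 x, hmR' x]
  -- the earlier vertices
  have hear : ∀ j < N - r, ∀ x : B, rk x < r + j →
      (x : V) ∈ R ∨ ∃ i < j, (inv (r + i) : V) = x := by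
    intro j hj x hx
    by_cases hxr : rk x < r
    · exact Or.inl ((hlow x).mpr hxr)
    · refine Or.inr ⟨rk x - r, by omega, ?_⟩
      have : r + (rk x - r) = rk x := by omega
      rw [this, hinv]
  have hear' : ∀ j < N - r, ∀ x : V, (x ∈ R ∨ ∃ i < j, (inv (r + i) : V) = x) →
      ∃ y : B, (y : V) = x ∧ rk y < r + j := by
    rintro j hj x (hx | ⟨i, hi, rfl⟩)
    · refine ⟨⟨x, hRB hx⟩, rfl, ?_⟩
      have := (hlow ⟨x, hRB hx⟩).mp hx
      omega
    · refine ⟨inv (r + i), rfl, ?_⟩
      rw [hrk _ (by omega)]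
      omega
  refine ⟨N - r, fun j => inv (r + j), fun j => Subtype.val '' (A (inv (r + j)) : Set B),
    ?_, ?_, ?_, ?_, ?_, ?_⟩
  · intro i hi j hj hij
    have h8 := congrArg rk (Subtype.ext hij)
    rw [hrk _ (by omega), hrk _ (by omega)] at h8
    omega
  · intro x
    constructor
    · rintro ⟨hxB, hxR⟩
      have h8 : ¬ rk ⟨x, hxB⟩ < r := fun h => hxR ((hlow ⟨x, hxB⟩).mpr h)
      have h9 := h1 ⟨x, hxB⟩
      refine ⟨rk ⟨x, hxB⟩ - r, by omega, ?_⟩
      have : r + (rk ⟨x, hxB⟩ - r) = rk ⟨x, hxB⟩ := by omega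
      simp only [this, hinv]
    · rintro ⟨j, hj, rfl⟩
      refine ⟨(inv (r + j)).2, fun h => ?_⟩
      have h8 := (hlow _).mp h
      rw [hrk _ (by omega)] at h8
      omega
  · rintro j hj x ⟨y, hy, rfl⟩
    refine hear j hj y ?_
    have h8 := h3 _ _ (Finset.mem_coe.mp hy)
    rwa [hrk _ (by omega)] at h8
  · intro j hj
    rw [Set.ncard_image_of_injective _ Subtype.val_injective, Set.ncard_coe_finset]
    exact h4 _
  · intro j hj x hx hadj
    obtain ⟨y, rfl, hy⟩ := hear' j hj x hx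
    refine ⟨y, ?_, rfl⟩
    rw [Finset.mem_coe]
    exact h6 y (inv (r + j)) (by simpa using hadj.symm) (by rw [hrk _ (by omega)]; exact hy)
  · intro j hj
    by_cases hsub : ∀ a ∈ A (inv (r + j)), (a : V) ∈ R
    · left
      rintro x ⟨y, hy, rfl⟩
      exact hsub y (Finset.mem_coe.mp hy)
    · right
      push Not at hsub
      obtain ⟨a, ha, haR⟩ := hsub
      obtain ⟨y, hy, hmax⟩ := (A (inv (r + j))).exists_max_image rk ⟨a, ha⟩
      have hyr : ¬ rk y < r := by
        intro h
        have h8 := hmax a ha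
        exact haR ((hlow a).mpr (by omega))
      have hyj := h3 _ _ hy
      rw [hrk _ (by omega)] at hyj
      have hri : r + (rk y - r) = rk y := by omega
      refine ⟨rk y - r, by omega, ?_⟩
      simp only [hri, hinv]
      rintro x ⟨z, hz, rfl⟩
      rw [Finset.mem_coe] at hz
      rcases (hmax z hz).eq_or_lt with h8 | h8
      · left
        rw [h2 h8]
      · right
        exact ⟨z, Finset.mem_coe.mpr (h5 _ z hz y hy h8), rfl⟩

end Vale.Agent.P235.SC.H198
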